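import Vale.Agent.P269HK.Cut
import Vale.Agent.P269HP.IF

/-!
P269, block H: a complete intersection is cut out transversally by its equations
-/

open scoped Manifold ContDiff Topology
open Filter MvPolynomial
open Function (Injective comp)
open Vale.Agent.P272.K
open Vale.Agent.P269H (CI)
open Vale.Agent.P269HK Vale.Agent.P269HN Vale.Agent.P269HP
open Vale.Agent.P264Z (CP)
open Vale.Agent.P281Z (Imm)
open Vale.Agent.P277Z (Hol)
open Vale.Agent.P277Z.Slc (Ind)

noncomputable section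

namespace Vale.Agent.P269HW

theorem ev_smul {σ : Type} {f : MvPolynomial σ ℂ} {d : ℕ} (hf : f.IsHomogeneous d) (c : ℂ)
    (v : σ → ℂ) : eval (c • v) f = c ^ d * eval v f := by
  rw [eval_eq, eval_eq, Finset.mul_sum]
  refine Finset.sum_congr rfl fun s hs => ?_
  simp only [Pi.smul_apply, smul_eq_mul, mul_pow, Finset.prod_mul_distrib,
    Finset.prod_pow_eq_pow_sum]
  rw [← hf.degree_eq_sum_deg_support hs]
  ring

theorem fd_eval {σ : Type} [Fintype σ] [DecidableEq σ] (p : MvPolynomial σ ℂ) (x : σ → ℂ) :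
    HasFDerivAt (fun z : σ → ℂ => eval z p) (∑ j, eval x (pderiv j p) •
      ContinuousLinearMap.proj (R := ℂ) (φ := fun _ : σ => ℂ) j) x := by
  induction p using MvPolynomial.induction_on with
  | C a =>
    simp only [eval_C]
    refine (hasFDerivAt_const a x).congr_fderiv ?_
    ext1 v
    simp
  | add p q hp hq =>
    simp only [map_add]
    refine (hp.fun_add hq).congr_fderiv ?_
    ext1 v
    simp [add_mul, Finset.sum_add_distrib]
  | mul_X p k hp =>
    have h := hp.fun_mul (hasFDerivAt_apply (𝕜 := ℂ) k x)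
    simp only [eval_mul, eval_X]
    refine h.congr_fderiv ?_
    ext1 v
    simp [pderiv_X, Pi.single_apply, add_mul, Finset.sum_add_distrib, Finset.mul_sum, mul_assoc,
      apply_ite (eval x)]

variable {r c N : ℕ} {M : Type} [TopologicalSpace M] [ChartedSpace (Cm r) M]

/-- a homogeneous polynomial is a holomorphic section -/
theorem hh_poly (X : CI r c M) {f : MvPolynomial (Fin (r + c + 1)) ℂ} {d : ℕ}
    (hf : f.IsHomogeneous d) : (hc X).Hh d fun y => eval (X.pt y).rep f := fun y k hk e he => by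
  have h := AnalyticAt.aeval_mvPolynomial (analyticAt_pi_iff.1 (lf_an X he hk)) f
  refine h.congr (.of_forall fun z => ?_)
  show eval (lf X e k z) f = _ / _ ^ (d : ℤ)
  rw [lf, ev_smul hf, zpow_natCast, div_eq_inv_mul, inv_pow]
  rfl

theorem imm_emb (X : CI r c M) (m : M) : Imm r (r + c) (emb X) m := by
  rintro e _ he ⟨⟨i, rfl⟩, hi⟩
  have h1 := (chart_emb_an X he hi).differentiableAt (by simp)
  have h2 : lf X e i =ᶠ[𝓝 (e m)] CP.ins i ∘ fun w => CP.chart i (emb X (e.symm w)) := by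
    filter_upwards [ev_ne X he hi, chart_emb X he hi] with w hw h
    have h3 : lf X e i w i = 1 := inv_mul_cancel₀ hw
    have h4 := CP.smul_ins_aff i (v := lf X e i w) (h3 ▸ one_ne_zero)
    rw [h3, one_smul] at h4
    rw [comp, h, h4]
  have h3 := lf_inj X he hi
  rw [h2.fderiv_eq, fderiv_comp _ ((CP.contDiff_ins' i).differentiable (by simp) _) h1] at h3
  exact Injective.of_comp h3

theorem ind_poly {f : Fin c → MvPolynomial (Fin (N + 1)) ℂ} {d : Fin c → ℕ}
    (hf : ∀ j, (f j).IsHomogeneous (d j)) {y : CP N} (h0 : ∀ j, eval (CP.rep y).1 (f j) = 0)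
    (h : LinearIndependent ℂ fun j a => eval (CP.rep y).1 (pderiv a (f j))) {k : Fin (N + 1)}
    (hk : (CP.rep y).1 k ≠ 0) :
    Ind N (fun j y => eval (CP.rep y).1 (f j) / (CP.rep y).1 k ^ (d j : ℤ)) y := by
  have h1 : ∀ j, Hol N (fun y => eval (CP.rep y).1 (f j) / (CP.rep y).1 k ^ (d j : ℤ)) y :=
    fun j => hh_poly (pn N) (hf j) y k hk
  refine ⟨h1, ?_⟩
  rintro _ ⟨⟨i, rfl⟩, hi⟩
  set v := (CP.rep y).1 with hv
  have hi' : v i ≠ 0 := hi
  have h2 : ∀ j a, eval v (pderiv a (f j)) = v k ^ d j *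
      P277Z.Slc.dd (fun y => eval (CP.rep y).1 (f j) / (CP.rep y).1 k ^ (d j : ℤ)) (CP.chart i) y
        (fderiv ℂ (CP.aff i) v (Pi.single a 1)) := fun j a => by
    have h3 := (h1 j _ ⟨⟨i, rfl⟩, hi⟩).differentiableAt.hasFDerivAt.comp v
      ((CP.contDiffAt_aff i hi').differentiableAt (by simp)).hasFDerivAt
    have h4 := ((hasFDerivAt_apply (𝕜 := ℂ) k v).pow (d j)).mul h3
    have h5 := (fd_eval (f j) v).unique (h4.congr_of_eventuallyEq (by
      filter_upwards [(continuous_apply i).continuousAt.eventually_ne hi',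
        (continuous_apply k).continuousAt.eventually_ne hk] with u h5 h6
      obtain ⟨a, ha, h7⟩ := CP.exists_rep ⟨CP.ins i (CP.aff i u), CP.ins_ne_zero _ _⟩
      have h8 := CP.smul_ins_aff i h5
      show _ = u k ^ d j * (eval (CP.rep (CP.mk _)).1 (f j) / (CP.rep (CP.mk _)).1 k ^ (d j : ℤ))
      rw [h7, ev_smul (hf j), zpow_natCast]
      conv_lhs => rw [← h8, ev_smul (hf j)]
      have h9 : u i * CP.ins i (CP.aff i u) k = u k := congrFun h8 k
      have h10 : CP.ins i (CP.aff i u) k ≠ 0 := fun h => h6 (by rw [← h9, h, mul_zero])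
      rw [← h9, Pi.smul_apply, smul_eq_mul, mul_pow, mul_pow]
      field_simp))
    have h6 := DFunLike.congr_fun h5 (Pi.single a 1)
    have h7 : CP.pt i (CP.aff i v) = y := (CP.chart i).left_inv hi
    simpa [Pi.single_apply, h7, ← hv, h0, P277Z.Slc.dd] using h6
  rw [Fintype.linearIndependent_iff] at h ⊢
  intro s hs j
  have h3 := h (fun j => s j / v k ^ d j) (funext fun a => by
    have h4 := DFunLike.congr_fun hs (fderiv ℂ (CP.aff i) v (Pi.single a 1))
    simp only [Finset.sum_apply, Pi.smul_apply, smul_eq_mul, h2, ← mul_assoc,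
      div_mul_cancel₀ _ (pow_ne_zero _ hk)]
    simpa using h4) j
  exact (div_eq_zero_iff.1 h3).resolve_right (pow_ne_zero _ hk)

theorem cut_of (X : CI r c M) {I' : Type} {H' : HC r M I'} {μ : M → ℂ}
    (h : Cmp H' (hc (pn (r + c))) (emb X) μ) :
    Cut H' (hc (pn (r + c))) (emb X) μ (fun j y => eval (CP.rep y).1 (X.f j)) X.dg where
  toCmp := h
  inj := X.inj
  imm := imm_emb X
  hF j := hh_poly (pn (r + c)) (X.hom j)
  rng y := (X.rng y).symm
  ind m := (CP.exists_ne (emb X m)).imp fun _ hk =>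
    ⟨hk, ind_poly X.hom ((X.rng _).1 ⟨m, rfl⟩) (X.ind m) hk⟩

/-- `X` is cut out in projective space by its equations -/
theorem cutX [IsManifold 𝓘(ℂ, Cm r) ω M] (X : CI r c M) : Cut (hc X) (hc (pn (r + c))) (emb X)
    (fun _ => 1) (fun j y => eval (CP.rep y).1 (X.f j)) X.dg :=
  cut_of X ⟨contMDiff_emb X, fun _ => one_ne_zero, fun i => by
    simp only [one_mul]
    exact HC.hh_x (H := hc X) i⟩

/-- the hyperplane -/
theorem cutP (n : ℕ) : ∃ μ, Cut (hc (pn n)) (hc (pn (n + 1))) (emb (hyp n)) μ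
    (fun j y => eval (CP.rep y).1 ((hyp n).f j)) fun _ => 1 := by
  have h1 : ∀ p : CP n, ∃ a : ℂ, a ≠ 0 ∧ ∀ i, a * (hpt p).rep i = snocL n (CP.rep p).1 i :=
    fun p => by
      obtain ⟨a, ha, h⟩ := CP.exists_rep ⟨snocL n (CP.rep p).1, snocL_ne (CP.rep p).2⟩
      refine ⟨a⁻¹, inv_ne_zero ha, fun i => ?_⟩
      rw [show (hpt p).rep i = a * snocL n (CP.rep p).1 i from congrFun h i,
        inv_mul_cancel_left₀ ha]
  choose μ h2 h3 using h1
  refine ⟨μ, cut_of (hyp n) ⟨contMDiff_emb _, h2, fun i => ?_⟩⟩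
  rw [show (fun m => μ m * (hc (pn (n + 1))).x (emb (hyp n) m) i) =
    fun m => snocL n (CP.rep m).1 i from funext fun m => h3 m i]
  induction i using Fin.lastCases with
  | last =>
    simp only [snocL_last]
    simpa using (HC.hh_const (H := hc (pn n)) 0).mul (HC.hh_x 0)
  | cast j =>
    simp only [snocL_cast]
    exact HC.hh_x (H := hc (pn n)) j

end Vale.Agent.P269HW
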