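import Vale.Agent.P269HW.Cut

/-!
P269, block H: the rows KOS and PAS from the Koszul theorem for transversal sections
-/

open scoped Manifold ContDiff Topology
open Vale.Agent.P272.K
open Vale.Agent.P269H (CI)
open Vale.Agent.P269HK Vale.Agent.P269HN Vale.Agent.P269HP Vale.Agent.P269HS
open Vale.Agent.P264Z (CP)

noncomputable section

namespace Vale.Agent.P269HW

/-- the Koszul theorem -/
def KZ : Prop := ∀ (r c : ℕ) (Y : Type) [TopologicalSpace Y] [ChartedSpace (Cm (r + c)) Y]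
  [IsManifold 𝓘(ℂ, Cm (r + c)) ω Y] [T2Space Y] [CompactSpace Y] (I : Type)
  (M : Type) [TopologicalSpace M] [ChartedSpace (Cm r) M] [IsManifold 𝓘(ℂ, Cm r) ω M] [T2Space M]
  [CompactSpace M] (I' : Type) (H' : HC r M I') (H : HC (r + c) Y I) (ι : M → Y) (μ : M → ℂ)
  (F : Fin c → Y → ℂ) (d : Fin c → ℕ), Cut H' H ι μ F d → ∀ t,
  (∀ S : Finset (Fin c), Fd (H.D (t + ∑ j ∈ S, d j))) → Fd (H'.D t) ∧ chi (H'.D t) (H'.σ t) =
    ∑ S : Finset (Fin c), (-1) ^ S.card * chi (H.D (t + ∑ j ∈ S, d j)) (H.σ (t + ∑ j ∈ S, d j))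

/-- the finiteness statement in codimension one -/
def PC : Prop := ∀ (r : ℕ) (Y : Type) [TopologicalSpace Y] [ChartedSpace (Cm (r + 1)) Y]
  [IsManifold 𝓘(ℂ, Cm (r + 1)) ω Y] [T2Space Y] [CompactSpace Y] (I : Type)
  (M : Type) [TopologicalSpace M] [ChartedSpace (Cm r) M] [IsManifold 𝓘(ℂ, Cm r) ω M] [T2Space M]
  [CompactSpace M] (I' : Type) (H' : HC r M I') (H : HC (r + 1) Y I) (ι : M → Y) (μ : M → ℂ)
  (F : Fin 1 → Y → ℂ) (d : Fin 1 → ℕ), Cut H' H ι μ F d → ∀ t,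
  Fd (H.D t) → Fd (H'.D t) → Fd (H.D (t + d 0))

theorem kos_of (h : KZ) : KOS := fun r c M _ _ _ _ _ _ X k t =>
  h r c _ _ M _ _ _ _ _ _ _ (cutX X) t fun _ => k _

theorem pas_of (h : KZ) (h' : PC) : PAS := fun n t k1 k2 => by
  obtain ⟨μ, hc⟩ := cutP n
  have k3 : FdT (pn (n + 1)) (t + 1) := h' n _ _ _ _ _ _ _ _ _ _ hc t k1 k2
  have e : (Finset.univ : Finset (Finset (Fin 1))) = {∅, {0}} := by decide
  refine ⟨k3, ?_⟩
  have k4 := (h n 1 _ _ _ _ _ _ _ _ _ _ hc t fun S => by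
    have k5 : S ∈ ({∅, {0}} : Finset (Finset (Fin 1))) := e ▸ Finset.mem_univ S
    rcases Finset.mem_insert.1 k5 with rfl | k5
    · exact k1
    · rw [Finset.mem_singleton.1 k5]
      exact k3).2
  rw [e, Finset.sum_pair (by decide)] at k4
  have k5 : chiT (pn n) t =
      (-1) ^ 0 * chiT (pn (n + 1)) t + (-1) ^ 1 * chiT (pn (n + 1)) (t + 1) := k4
  rw [k5]
  ring

end Vale.Agent.P269HW
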