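import Vale.Agent.P269FB.Glb

/-!
P269: every partition of unity computes the integral of a form; Stokes.
-/

open scoped Matrix ContDiff Topology Manifold
open Filter MeasureTheory
open Vale.Agent.P272.K Vale.Agent.P281Z.Hg Vale.Agent.P281Z.Hg.G1H Vale.Agent.P281Z.Hg.G2H
open Vale.Agent.P269F (top IsForm Exact intg)
open Vale.Agent.P269FB

noncomputable section

namespace Vale.Agent.P269HW

variable {m : ℕ} {X : Type} [TopologicalSpace X] [ChartedSpace (Fin m → ℂ) X]
  [IsManifold 𝓘(ℂ, Fin m → ℂ) ω X] [T2Space X] [CompactSpace X] {u u' : P269F.Fm m X}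

theorem intg_eq (hu : IsForm u) {ι : Type} [Fintype ι]
    {e : ι → OpenPartialHomeomorph X (Fin m → ℂ)} {ρ : ι → X → ℝ}
    (k : ∀ i, e i ∈ atlas (Fin m → ℂ) X ∧ Continuous (ρ i) ∧ tsupport (ρ i) ⊆ (e i).source)
    (k1 : ∀ x, ∑ i, ρ i x = 1) :
    intg u = ∑ i, ∫ z in (e i).target, (ρ i ((e i).symm z) : ℂ) * top m (u (e i) z) := by
  obtain ⟨v, h⟩ := ex_rel hu
  let σ := (Fintype.equivFin ι).symm
  rw [h.intg, itc_itg, ← itg_part (dc_top v) (e := fun i => e (σ i)) (ρ := fun i => ρ (σ i))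
    (fun i => k _) (fun x => (σ.sum_comp fun i => ρ i x).trans (k1 x)), Finset.mul_sum,
    ← σ.sum_comp]
  refine Finset.sum_congr rfl fun i _ => ?_
  rw [← integral_const_mul]
  refine setIntegral_congr_fun (e (σ i)).open_target.measurableSet fun z hz => ?_
  have h2 := h (e (σ i)) _ ⟨(k _).1, (e (σ i)).map_target hz⟩
  rw [(e (σ i)).right_inv hz] at h2
  show _ * (_ * vl v (e (σ i)) z Finset.univ) = _
  rw [top_eq, h2, mul_left_comm]

theorem intg_add (hu : IsForm u) (hu' : IsForm u') : intg (u + u') = intg u + intg u' := by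
  obtain ⟨v, h⟩ := ex_rel hu
  obtain ⟨v', h'⟩ := ex_rel hu'
  rw [(h.add h').intg, h.intg, h'.intg, map_add, mul_add]

theorem intg_smul (c : ℂ) (hu : IsForm u) : intg (c • u) = c * intg u := by
  obtain ⟨v, h⟩ := ex_rel hu
  rw [(h.smul c).intg, h.intg, map_smul, smul_eq_mul, mul_left_comm]

theorem intg_exact (hu : IsForm u) (h0 : Exact u) : intg u = 0 := by
  obtain ⟨v, h⟩ := ex_rel hu
  obtain ⟨y, rfl⟩ := h.exact_iff.1 h0
  rw [h.intg, P275MC.itc_dd (by rw [P275MC.Ac_univ]; trivial), mul_zero]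

end Vale.Agent.P269HW
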